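import Vale.Agent.P165W.Fin2

open Vale.Agent.P151 Vale.Agent.P165 Vale.Agent.P165W

universe u v w

theorem Vale.Agent.Results.P165.AllTrees.result :
    (∀ (V : Type v) (Γ : SimpleGraph V) (G : Type u) [Group G] [MulAction G V]
      (X : Type w) (T : SimpleGraph X) [MulAction G X],
      Geom Γ G → NonElem T G → pc Γ < pu Γ) ∧
    (∀ (H : Type u) [Group H] (S : Finset H), Subgroup.closure (S : Set H) = ⊤ →
      ∀ K : Subgroup H, K.FiniteIndex → ∀ (X : Type w) (T : SimpleGraph X) [MulAction K X],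
        NonElem T K →
        pc (SimpleGraph.mulCayley (S : Set H)) < pu (SimpleGraph.mulCayley (S : Set H))) :=
  ⟨fun _ _ _ _ _ _ _ _ hG hT => main11 hG hT,
    fun _ _ S hS K hK _ _ _ hT => main11 (cayley_geom S hS K hK) hT⟩
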