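import Vale.Agent.P165T.Fin3

open Vale.Agent.P151 Vale.Agent.P165 Vale.Agent.P165T

universe u v w

theorem Vale.Agent.Results.P165.EndFreeTrees.result :
    (∀ (V : Type v) (Γ : SimpleGraph V) (G : Type u) [Group G] [MulAction G V]
      (X : Type w) (T : SimpleGraph X) [MulAction G X],
      Geom Γ G → (EndFreeAct T G ∨ IrrAct T G) → pc Γ < pu Γ) ∧
    (∀ (H : Type u) [Group H] (S : Finset H), Subgroup.closure (S : Set H) = ⊤ →
      ∀ K : Subgroup H, K.FiniteIndex → ∀ (X : Type w) (T : SimpleGraph X) [MulAction K X],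
        (EndFreeAct T K ∨ IrrAct T K) →
        pc (SimpleGraph.mulCayley (S : Set H)) < pu (SimpleGraph.mulCayley (S : Set H))) :=
  ⟨fun _ _ _ _ _ _ _ _ hG hT => hT.elim (main7 hG) (main6 hG),
    fun _ _ S hS K hK _ _ _ hT =>
      hT.elim (main7 (cayley_geom S hS K hK)) (main6 (cayley_geom S hS K hK))⟩
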