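import Vale.Agent.P165.Main2

open Vale.Agent.P151 Vale.Agent.P165

universe u v

theorem Vale.Agent.Results.P165.LargeGroups.result :
    (∀ (V : Type v) (Γ : SimpleGraph V) (G : Type u) [Group G] [MulAction G V],
      Geom Γ G → (∃ φ : G →* FreeGroup (Fin 2), Function.Surjective φ) → pc Γ < pu Γ) ∧
    (∀ (H : Type u) [Group H] (S : Finset H), Subgroup.closure (S : Set H) = ⊤ →
      ∀ K : Subgroup H, K.FiniteIndex →
        (∃ φ : K →* FreeGroup (Fin 2), Function.Surjective φ) →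
        pc (SimpleGraph.mulCayley (S : Set H)) < pu (SimpleGraph.mulCayley (S : Set H))) :=
  ⟨fun _ _ _ _ _ hG ⟨φ, hφ⟩ => main2 hG φ hφ,
    fun _ _ S hS K hK ⟨φ, hφ⟩ => main2 (cayley_geom S hS K hK) φ hφ⟩
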