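import Vale.Agent.P165.Main3

open Vale.Agent.P151 Vale.Agent.P165

universe u v

theorem Vale.Agent.Results.P165.TreeActions.result :
    (∀ (V : Type v) (Γ : SimpleGraph V) (G : Type u) [Group G] [MulAction G V],
      Geom Γ G → ActsOnTree G → pc Γ < pu Γ) ∧
    (∀ (H : Type u) [Group H] (S : Finset H), Subgroup.closure (S : Set H) = ⊤ →
      ∀ K : Subgroup H, K.FiniteIndex → ActsOnTree K →
        pc (SimpleGraph.mulCayley (S : Set H)) < pu (SimpleGraph.mulCayley (S : Set H))) ∧
    (∀ (G : Type u) (Q : Type v) [Group G] [Group Q] (φ : G →* Q), Function.Surjective φ →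
      ActsOnTree Q → ActsOnTree G) ∧
    ActsOnTree (FreeGroup (Fin 2)) :=
  ⟨fun _ _ _ _ _ hG hT => main3 hG hT, fun _ _ S hS K hK hT => main3 (cayley_geom S hS K hK) hT,
    fun _ _ _ _ φ hφ h => acts_of_surj φ hφ h, acts_free⟩
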