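import Vale.Agent.P165.Cor

open Vale.Agent.P151 Vale.Agent.P165

universe u v

theorem Vale.Agent.Results.P165.TreeOfFree.result :
    (∀ (V : Type v) (Γ : SimpleGraph V) (G : Type u) [Group G] [MulAction G V],
      Geom Γ G → TreeOfFree G → pc Γ < pu Γ) ∧
    (∀ (H : Type u) [Group H] (S : Finset H), Subgroup.closure (S : Set H) = ⊤ →
      ∀ K : Subgroup H, K.FiniteIndex → TreeOfFree K →
        pc (SimpleGraph.mulCayley (S : Set H)) < pu (SimpleGraph.mulCayley (S : Set H))) ∧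
    (∀ (G : Type u) [Group G], FreeByFree G → TreeOfFree G) ∧
    (∀ m n : ℕ, 2 ≤ m → 2 ≤ n → FreeByFree (FreeGroup (Fin m) × FreeGroup (Fin n))) :=
  ⟨fun _ _ _ _ _ hG hT => main hG hT, fun _ _ S hS K hK hT => cayley_main S hS K hK hT,
    fun _ _ h => tree_of_fbf h, fun _ _ hm hn => fbf_prod hm hn⟩
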